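import Vale.Agent.P088.R2.H165.NF.J
import Vale.Agent.P088.R2.H710.EP.DC
import Vale.Agent.P088.R2.H808.A.Wz
import Vale.Agent.P088.R2.H912.A.Sup
import Vale.Agent.P088.R2.H844.E.Reg

/-!
# P088, stage 3, EST': the pairs `(zI, A1)`, `(A1, zI)` without hypotheses

`rowD`: the first derivatives of the cut-off of `A1` where `tinf ≤ 0` (helper710's `chA` with
`|D u| ≤ 2`).
-/

open Set Filter
open scoped ContDiff Topology

noncomputable section

namespace Vale.Agent.P088.R2.H165.NF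

open Vale.Agent.P088.LR Vale.Agent.P088.HY
open Vale.Agent.P088.R2.H31.EP
open Vale.Agent.P088.R2.H455.E
open Vale.Agent.P088.R2.H558.G
open Vale.Agent.P088.R2.H844.E (PayF)
open Vale.Agent.P088.R2.H867.EP (Zo)

variable {n : ℕ}

/-- The first derivatives of `u` in the coordinate directions on `OmB`. -/
theorem fd_u (n : ℕ) : EvC fun q => ∀ d : Pk n, PkOk q d → ∀ z ∈ H747.A.OmB q d, ∀ i,
    |fderiv ℝ (d.u q) z (Pi.single i 1, 0)| ≤ 2 ∧
    |fderiv ℝ (d.u q) z (0, Pi.single i 1)| ≤ 2 := by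
  refine (H808.A.ev_cq n).mono ?_
  intro q hC d h z hz i
  have hJ := H808.A.J_u hC h (H808.A.lo hC h hz)
  exact ⟨hJ.d1 (Sum.inl i), hJ.d1 (Sum.inr i)⟩

/-- **Row D.** -/
theorem rowD (hn : 1 ≤ n) : RowD n := by
  obtain ⟨B, hB, hB0, hE⟩ := H710.DC.chA hn
  refine ⟨fun q => B q ^ 2, fun q => by
    show B q.b_c' ^ 2 = B q ^ 2
    rw [hB q], ?_⟩
  refine ((hE.and (H281.A.supp_OmB n)).and (fd_u n)).mono ?_
  rintro q ⟨⟨hE, hs⟩, hu⟩ d h z ht ha i
  have hz := hs d h .A1 (H281.A.off_A (by simp)) (subset_tsupport _ ha)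
  obtain ⟨u1, u2⟩ := hu d h z hz i
  have n1 := H710.DC.norm_ex (n := n) (Sum.inl i)
  have n2 := H710.DC.norm_ex (n := n) (Sum.inr i)
  have k1 := hE d h z ht .A1 (Or.inl rfl) ha _ n1 u1
  have k2 := hE d h z ht .A1 (Or.inl rfl) ha _ n2 u2
  have b0 := hB0 q
  constructor
  · rw [← sq_abs]
    exact pow_le_pow_left₀ (abs_nonneg _) k1 2
  · rw [← sq_abs]
    exact pow_le_pow_left₀ (abs_nonneg _) k2 2

/-- **The pair `(zI, A1)`.** -/
theorem payEW_zI_A1 {L : Lc n} (hL : L.Ok) : PayEW L .zI .A1 :=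
  pay_zI_A1 hL (H912.A.rowWX n)

/-- helper844's form. -/
theorem PayEF.payF {L : Lc n} {k j : Zo} (h : PayEF L k j) : PayF L k j := h

/-- **The pair `(A1, zI)`** in the region `tinf ≤ 0`. -/
theorem payF_A1_zI {L : Lc n} (hn : 1 ≤ n) (hL : L.Ok) : PayF L .A1 .zI :=
  (pay_A1_zI hL (H912.A.rowWX n) (rowD hn)).payF

end Vale.Agent.P088.R2.H165.NF
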