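import Vale.Agent.P088.R2.H165.NF.P
import Vale.Agent.P088.R2.H558.G.TopL

/-!
# P088, stage 3, EST': the payments of the pairs `(zI, A1)`, `(A1, zI)`
-/

open Set Filter
open scoped Topology ContDiff Matrix

noncomputable section

namespace Vale.Agent.P088.R2.H165.NF

open Vale.Agent.P088.LR Vale.Agent.P088.HY Vale.Agent.P088.R2.H961.GW Vale.Agent.P088.R2.H464.Cu
open Vale.Agent.P088.R2.H31.EP Vale.Agent.P088.R2.H551.E
open Vale.Agent.P088.R2.H455.E
open Vale.Agent.P088.R2.H558.G (RowPayW PayEW)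
open Vale.Agent.P088.R2.H867.EP (Cut Zo path sd Near Off Inf)
open Vale.Agent.P088.R2.H867.Z (sq1 sqp Zc sq1_nn sqp_nn)
open Vale.Agent.P088.R2.H747.A (GG mA Wx2 Wy2)
open Vale.Agent.P088.R2.H281.A (RowWX)
open Vale.Agent.P088.R2.H338.C (TL)
open Vale.Agent.P088.R2.H338.TC (Na rx ry)
open Vale.Agent.P088.R2.H710.GP (tb_x tb_y sq_gx sq_gy en gx gy)
open Ly (cW cX)

variable {n : ℕ} {q : Cst} {d : Pk n} {z : VV n} {k : Zo} {L : Lc n}

/-! ## Functions of the constants -/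

theorem ev_M₀ {f : Cst → ℝ} (hf : NB_M₀ f) : EvC fun q => f q ≤ q.M₀ := by
  have h : EvC fun q => f q.b_M₀ ≤ q.M₀ :=
    EvC.at_M₀ (fun q t => f q ≤ t) fun q => eventually_ge_atTop (f q)
  exact h.mono fun q hq => by rwa [hf q] at hq

theorem nb_M {α : Type*} {f : Cst → α} (h : NB_c' f) : NB_M₀ f := fun q =>
  (h q.b_M₀).symm.trans (h q)

theorem nb_c {α : Type*} {f : Cst → α} (h : NB_c₀ f) : NB_c' f := fun q =>
  (h q.b_c').symm.trans (h q)

theorem aM_nb (hL : L.Ok) : NB_c' (aM L) := fun q => by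
  unfold aM
  rw [hL.μA.2 q]
  rfl

theorem AM_nb (hL : L.Ok) : NB_c' (AM L) := fun q => by
  unfold AM
  rw [hL.μA.2 q, hL.cs.2 q]

theorem aF_nb : NB_c' aF := fun _ => rfl

theorem Bz_nb (n : ℕ) : NB_c' (Bz n) := fun _ => rfl

/-! ## The tube letters -/

/-- `Φ'(u₀) ≤ 20 E` where one of the tube cut-offs is not zero. -/
theorem Na_le (hq : NC n q) (h : PkOk q d) (hz : Ly q d k z) (hk : ¬Inf k)
    (hx : rx q d z ≠ 0 ∨ ry q d z ≠ 0) : Na d z ≤ 20 * d.E q z := by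
  have hn := sd_near hz.ne hk hq.gt.gc.inf.κ0 hq.gt.gc.inf.κ1 (H404.INF.lvG hq.gt.gc.inf h)
  have hNG := H710.GP.NG_pos hq.gt.gc h z
  have hrT := hq.gt.gc.rT0
  have hrT1 := hq.gt.gc.rT1
  have hσ := hq.gt.gc.inf.σ1
  have hr0 : 0 < H710.GP.rr z ∧ H710.GP.rr z ≤ 1 := by
    have h1 := (hq.nr.rb d h z).2
    have h2 : q.c₀ ^ 2 ≤ 2 * rq (gi d.s₁) z := hz.r1
    have h3 : 2 * rq (gi d.s₁) z ≤ 1 / 4 := hz.r2_le hq
    have h4 := hq.c0
    have h5 := H710.GP.rr_nn z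
    have h6 := H710.GP.rr_sq z
    constructor
    · have : 0 < H710.GP.rr z ^ 2 := by rw [h6]; nlinarith
      exact lt_of_le_of_ne h5 fun hc => by rw [← hc] at this; norm_num at this
    · have : H710.GP.rr z ^ 2 ≤ 1 := by rw [h6]; linarith
      nlinarith
  have hp1 := Cst.p₁_ge hq.gt.gc.rad
  have hT : H710.GP.Tb q d z (4 * q.rT) := by
    rcases hx with hx | hx
    · have h1 : d.tx q (4 * q.rT) z < 1 := by
        by_contra hc
        refine hx ?_
        unfold rx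
        rw [Real.smoothTransition.zero_of_nonpos (by linarith), mul_zero]
      have h2 := tx_lt (by positivity) hNG h1
      rw [sq_gx] at h2
      have h3 : en (gx d q z) < 4 * q.rT * d.NG q z :=
        lt_of_pow_lt_pow_left₀ 2 (by positivity) h2
      exact tb_x hq.gt.gc h hn hr0.1 (by linarith) (by linarith) h3.le
    · have h1 : d.ty q (4 * q.rT) z < 1 := by
        by_contra hc
        refine hx ?_
        unfold ry
        rw [Real.smoothTransition.zero_of_nonpos (by linarith), mul_zero]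
      have h2 := ty_lt (by positivity) hNG h1
      rw [sq_gy] at h2
      have h3 : en (gy d q z) < 4 * q.rT * d.NG q z :=
        lt_of_pow_lt_pow_left₀ 2 (by positivity) h2
      exact tb_y hq.gt.gc h hn hr0.1 (by linarith) (by linarith) h3.le
  have h1 := hT.lo
  have hE0 := Real.exp_pos (d.u0 z)
  have h2 : prL q.e₁ (H710.GP.rr z) * d.G0 q z ≤ 8 * Real.exp (d.u0 z) := by
    have e1 := H710.GP.cq_rr (q := q) (d := d) hq.gt.gc.rad hr0.1
    rw [← e1]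
    have p := H606.EP.pn_ok hq.nr.rad.e0 (s := qq z) (qq_nonneg z) (by
      have h1 := (hq.nr.rb d h z).2.1
      have h3 : 2 * rq (gi d.s₁) z ≤ 1 / 4 := hz.r2_le hq
      linarith)
    have p1 : 0 ≤ H606.EP.prS₁ q.e₁ (qq z) := le_trans (by norm_num) p.l1
    have e2 : H710.GP.cq d q z = 2 * (Real.exp (d.u0 z) * H606.EP.prS₁ q.e₁ (qq z)) := rfl
    have e3 : H710.GP.cq d q z ≤ 8 * Real.exp (d.u0 z) := by
      rw [e2]
      nlinarith [p.b1]
    calc H710.GP.cq d q z * H710.GP.rr z ≤ 8 * Real.exp (d.u0 z) * 1 :=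
          mul_le_mul e3 hr0.2 hr0.1.le (by positivity)
      _ = _ := mul_one _
  have h3 : Na d z ≤ d.NG q z := by
    have := PkOk.G0_nonneg (d := d) hq.gt.gc.rad z
    unfold Na Pk.NG
    linarith
  have h4 : 9 / 10 * d.NG q z ≤ (1 - 4 * q.rT - q.σ) * d.NG q z :=
    mul_le_mul_of_nonneg_right (by linarith) hNG.le
  have h5 : Real.exp (d.u0 z) ≤ 2 * d.E q z := by
    have h6 := (abs_le.1 (H509.TG.u_close h z)).1
    have h7 : Real.exp (d.u0 z) ≤ Real.exp (1 / 4) * d.E q z := by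
      unfold Pk.E
      rw [← Real.exp_add]
      exact Real.exp_le_exp.2 (by linarith)
    have h8 : Real.exp (1 / 4 : ℝ) ≤ 2 := by
      have h9 : Real.exp (1 / 4 : ℝ) ^ 4 = Real.exp 1 := by
        rw [← Real.exp_nat_mul]
        norm_num
      have h10 := Real.exp_one_lt_d9
      by_contra hc
      have h11 : (2 : ℝ) ^ 4 < Real.exp (1 / 4 : ℝ) ^ 4 :=
        pow_lt_pow_left₀ (not_le.1 hc) (by norm_num) (by norm_num)
      rw [h9] at h11
      linarith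
    have hE := Ly.E_pos (q := q) (d := d) z
    nlinarith
  linarith

theorem rx_sq (q : Cst) (d : Pk n) (z : VV n) : rx q d z ^ 2 ≤ 1 ∧ ry q d z ^ 2 ≤ 1 := by
  have key : ∀ s t : ℝ, (Real.smoothTransition s * Real.smoothTransition t) ^ 2 ≤ 1 := by
    intro s t
    have h1 := Real.smoothTransition.nonneg s
    have h2 := Real.smoothTransition.nonneg t
    have h3 := Real.smoothTransition.le_one s
    have h4 := Real.smoothTransition.le_one t
    have h5 : Real.smoothTransition s * Real.smoothTransition t ≤ 1 := mul_le_one₀ h3 h2 h4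
    have h6 : 0 ≤ Real.smoothTransition s * Real.smoothTransition t := mul_nonneg h1 h2
    nlinarith
  exact ⟨key _ _, key _ _⟩

theorem NaR_le (hq : NC n q) (h : PkOk q d) (hz : Ly q d k z) (hk : ¬Inf k) :
    Na d z * (rx q d z ^ 2 + ry q d z ^ 2) ≤ 40 * d.E q z := by
  have hE := Ly.E_pos (q := q) (d := d) z
  by_cases hx : rx q d z ≠ 0 ∨ ry q d z ≠ 0
  · have h1 := Na_le hq h hz hk hx
    obtain ⟨h2, h3⟩ := rx_sq q d z
    calc Na d z * (rx q d z ^ 2 + ry q d z ^ 2) ≤ 20 * d.E q z * 2 :=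
          mul_le_mul h1 (by linarith) (by positivity) (by positivity)
      _ = _ := by ring
  · push Not at hx
    rw [hx.1, hx.2]
    have : 0 ≤ 40 * d.E q z := by positivity
    simpa using this

theorem Na_nn (hq : NC n q) (h : PkOk q d) (z : VV n) : 0 ≤ Na d z :=
  (h.N_pos hq.nr.M1 _).le

/-! ## `(zI, A1)` -/

/-- The common numbers for `zI`, `z2a`, `z2b`: `E ≥ 1`. -/
theorem E_big (hq : NC n q) (h : PkOk q d) (hz : Ly q d k z) (hk : k ≠ .z0) {f : ℝ}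
    (hM : q.aC * f ≤ q.M₀) : f ≤ d.E q z := by
  have hN := h.N_ge (d.u q z)
  have h1 := sd_e0 hz.ne hz.nk hk (hq.nr.sm d h).cp hq.aC (h.N_pos hq.nr.M1 _)
  have h2 : q.aC * f ≤ q.aC * d.E q z := hM.trans (hN.trans h1)
  exact le_of_mul_le_mul_left h2 hq.aC

/-- The threshold of `(zI, A1)`. -/
def f1 (n : ℕ) (L : Lc n) (q : Cst) : ℝ :=
  (1632 * L.CI q * Bz n q + 8160 * L.CN q * Bz n q) / (aM L q * aF q)

theorem f1_nb (hL : L.Ok) : NB_c' (f1 n L) := fun q => by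
  unfold f1
  rw [nb_c hL.CI.2 q, hL.CN.2 q, Bz_nb n q, aM_nb hL q, aF_nb q]

/-- `m_A F ≥ ..`. -/
theorem mF_ge (hL : L.Ok) (hq : NC n q) {x T : ℝ} (hp : Pt L q d k x z)
    (hT : T ≤ aM L q * aF q * q.M₀) : T * d.E q z ≤ mA L.μA q d z * d.sx.F (d.W q) z ∧
      T * d.E q z ≤ mA L.μA q d z * d.sy.F (d.W q) z := by
  have h1 := aM_pos hL hq
  have h2 := aF_pos hq
  have hN : 1 ≤ d.N q z := hq.nr.M1.trans hp.N1
  have hE := hp.E0
  have e1 : aM L q * d.E q z ≤ mA L.μA q d z :=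
    (mul_le_mul_of_nonneg_left hp.Ex h1.le).trans hp.m1
  have e2 : q.M₀ ≤ (d.N q z + d.E q z) ^ 2 := by nlinarith [hp.N1]
  have e3 : aF q * q.M₀ ≤ d.sx.F (d.W q) z := (mul_le_mul_of_nonneg_left e2 h2.le).trans hp.f1
  have e4 : aF q * q.M₀ ≤ d.sy.F (d.W q) z := (mul_le_mul_of_nonneg_left e2 h2.le).trans hp.f2
  have hM : 0 < q.M₀ := by linarith [hq.nr.M1]
  have key : ∀ F : ℝ, aF q * q.M₀ ≤ F → T * d.E q z ≤ mA L.μA q d z * F := by
    intro F hF
    calc T * d.E q z ≤ aM L q * aF q * q.M₀ * d.E q z := mul_le_mul_of_nonneg_right hT hE.le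
      _ = aM L q * d.E q z * (aF q * q.M₀) := by ring
      _ ≤ _ := mul_le_mul e1 hF (by positivity) (le_trans (by positivity) e1)
  exact ⟨key _ e3, key _ e4⟩

/-- The cost `cTu` against zone A. -/
theorem pay_cTu {E ι : Type*} [NormedAddCommGroup E] [NormedSpace ℝ E] [Fintype ι]
    {σ τ : Sl E ι} {v₁ v₂ W a b : E → ℝ} {z : E} {M : Q8 E} (hn : H338.E.Nn M z) {t w : ℝ}
    {p : Q8 E} (h0 : p.κ z = 0) (h1 : p.ζ₁ z = 0) (h2 : p.ζ₂ z = 0) (h3 : p.ζy z = 0)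
    (h4 : p.w₁ z = w) (h5 : p.w₂ z = w) (h6 : p.wb z = 0) (h7 : p.wc z = 0)
    (hw₁ : t * w ≤ M.w₁ z) (hw₂ : t * w ≤ M.w₂ z) :
    t * p.dens σ τ v₁ v₂ W a b z ≤ M.dens σ τ v₁ v₂ W a b z := by
  refine H338.E.pay8 t 0 0 0 0 le_rfl le_rfl le_rfl ?_ ?_ ?_ ?_ ?_ ?_ ?_ ?_
  · rw [h0, mul_zero]; exact hn.κ
  · rw [h3, mul_zero, add_zero]; exact hn.ζy
  · rw [h1]; simpa using hn.ζ₁
  · rw [h2]; simpa using hn.ζ₂
  · rw [h6]; simpa using hn.wb
  · rw [h7]; simpa using hn.wc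
  · rw [h4]; simpa using hw₁
  · rw [h5]; simpa using hw₂

/-- **The pair `(zI, A1)`.** -/
theorem pay_zI_A1 (hL : L.Ok) (hW : RowWX n) : PayEW L .zI .A1 := by
  refine PayEW.all fun e _ => ?_
  have hM1 : EvC fun q => f1 n L q ≤ q.M₀ := ev_M₀ (nb_M (f1_nb hL))
  have hM2 : EvC fun q => q.aC * 1 ≤ q.M₀ := ev_M₀ fun _ => rfl
  refine (((evNC n).and hW).and (hM1.and hM2)).mono ?_
  rintro q ⟨⟨hq, hW⟩, hM1, hM2⟩ d h z hk hj a b
  have hz := ly_of hq h (Or.inr (Or.inl rfl)) (Or.inr (Or.inr (Or.inl rfl))) hk hj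
  have hp := pt_of hL hq h hz (hW d h .A1 (by simp) z hj)
  have hE1 : 1 ≤ d.E q z := E_big hq h hz (by decide) hM2
  have hB := Bz_one n q
  have a1 := aM_pos hL hq
  have a2 := aF_pos hq
  have hCI := hL.CI.1 q
  have hCN := hL.CN.1 q
  have hκ := (hL.kA.1 q).2
  have hT : 1632 * L.CI q * Bz n q + 8160 * L.CN q * Bz n q ≤ aM L q * aF q * q.M₀ := by
    unfold f1 at hM1
    rw [div_le_iff₀ (by positivity)] at hM1
    linarith
  obtain ⟨m1, m2⟩ := mF_ge hL hq hp hT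
  have t1 : 0 ≤ L.CI q * Bz n q * d.E q z := by positivity
  have t2 : 0 ≤ L.CN q * Bz n q * d.E q z := by positivity
  have hx0 : 0 ≤ aM L q * (d.E q z + sg L q * d.N q z) :=
    mul_nonneg a1.le (by linarith [hp.Ex])
  have hm0 : 0 ≤ mA L.μA q d z := hx0.trans hp.m1
  have hF1 : 0 ≤ d.sx.F (d.W q) z := le_trans (by positivity) hp.f1
  have hF2 : 0 ≤ d.sy.F (d.W q) z := le_trans (by positivity) hp.f2
  have hn := H338.E.nn_MA (σ := d.sx) (τ := d.sy) (W := d.W q) (m := mA L.μA q d)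
    (κ₀ := L.kA q) (by linarith) hm0 hF1 hF2
  show 34 * (H165.Tab.cI (nu L.kz q d) (L.CI q) (sq1 (d.ch q .zI)) (sqp (d.ch q .zI)) +
    cTu (L.CN q) (Na d) (rx q d) (ry q d) (sq1 (d.ch q .zI))).dens d.sx d.sy (fun _ => 0)
      (fun _ => 0) (d.W q) a b z ≤ (H747.SW.MA d.sx d.sy (d.W q) (mA L.μA q d) (L.kA q)).dens
      d.sx d.sy (fun _ => 0) (fun _ => 0) (d.W q) a b z
  rw [Q8.dens_add]
  have c1 := hp.c1
  have c2 := hp.c2
  have k1 := H338.E.cI_MA (σ := d.sx) (τ := d.sy) (v₁ := fun _ => 0) (v₂ := fun _ => 0)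
    (W := d.W q) (a := a) (b := b) (z := z) (m := mA L.μA q d) (κ₀ := L.kA q) (C := L.CI q)
    (q := 68) (B := 2 * Bz n q) (ν := nu L.kz q d) (Zq := sq1 (d.ch q .zI))
    (Zp := sqp (d.ch q .zI)) (by linarith) hm0 hF1 hF2 (by norm_num) hCI.le hp.E0.le
    (by linarith) (by
      show d.E q z * sqp (d.ch q .zI) z + sq1 (d.ch q .zI) z ≤ d.E q z * (2 * Bz n q)
      nlinarith [hp.E0]) (by linarith)
    (by
      show 12 * (68 * (L.CI q * (d.E q z * (2 * Bz n q)))) ≤ _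
      linarith)
    (by
      show 12 * (68 * (L.CI q * (d.E q z * (2 * Bz n q)))) ≤ _
      linarith)
  have hR := NaR_le hq h hz (by unfold Inf; decide)
  have hNa := Na_nn hq h z
  have hw : L.CN q * (Na d z * (rx q d z ^ 2 + ry q d z ^ 2) * sq1 (d.ch q .zI) z) ≤
      40 * (L.CN q * Bz n q * d.E q z) := by
    calc L.CN q * (Na d z * (rx q d z ^ 2 + ry q d z ^ 2) * sq1 (d.ch q .zI) z) ≤
          L.CN q * (40 * d.E q z * Bz n q) :=
          mul_le_mul_of_nonneg_left (mul_le_mul hR c1 (sq1_nn _ _) (by linarith [hp.E0])) hCN.le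
      _ = _ := by ring
  have k2 := pay_cTu (σ := d.sx) (τ := d.sy) (v₁ := fun _ => 0) (v₂ := fun _ => 0)
    (W := d.W q) (a := a) (b := b) (z := z) hn (t := 68)
    (p := cTu (L.CN q) (Na d) (rx q d) (ry q d) (sq1 (d.ch q .zI)))
    (w := L.CN q * (Na d z * (rx q d z ^ 2 + ry q d z ^ 2) * sq1 (d.ch q .zI) z))
    rfl rfl rfl rfl rfl rfl rfl rfl
    (by
      show _ ≤ 1 / 3 * (mA L.μA q d z * d.sx.F (d.W q) z)
      linarith)
    (by
      show _ ≤ 1 / 3 * (mA L.μA q d z * d.sy.F (d.W q) z)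
      linarith)
  linarith

end Vale.Agent.P088.R2.H165.NF
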