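import Vale.Agent.P088.R2.H165.NF.I

/-!
# P088, stage 3, EST': the payments of the pair `(A1, zI)`
-/

open Set Filter
open scoped Topology ContDiff Matrix

noncomputable section

namespace Vale.Agent.P088.R2.H165.NF

open Vale.Agent.P088.LR Vale.Agent.P088.HY Vale.Agent.P088.R2.H961.GW Vale.Agent.P088.R2.H464.Cu
open Vale.Agent.P088.R2.H31.EP Vale.Agent.P088.R2.H551.E
open Vale.Agent.P088.R2.H455.E
open Vale.Agent.P088.R2.H867.EP (Cut Zo path sd Near Off Inf)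
open Vale.Agent.P088.R2.H747.A (GG mA Wx2 Wy2)
open Vale.Agent.P088.R2.H281.A (RowWX)
open Vale.Agent.P088.R2.H338.C (TL)
open Vale.Agent.P088.R2.H338.TC (Na rx ry)

variable {n : ℕ} {q : Cst} {d : Pk n} {z : VV n} {k : Zo} {L : Lc n}

/-- **Row D-CH for `A1`** (helper710): the derivatives of the cut-off where it is alive. -/
def RowD (n : ℕ) : Prop := ∃ B : Cst → ℝ, NB_c' B ∧ EvC fun q => ∀ d : Pk n, PkOk q d →
  ∀ z, d.tinf q z ≤ 0 → d.ch q .A1 z ≠ 0 → ∀ i,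
    dx i (d.ch q .A1) z ^ 2 ≤ B q ∧ dy i (d.ch q .A1) z ^ 2 ≤ B q

/-- The payment of a pair in the region `tinf ≤ 0`. -/
def PayEF (L : Lc n) (k j : Zo) : Prop := ∃ th : Cst → ℝ, SmE th ∧ ∀ e : Cst → ℝ, SmE e →
  (∀ q, e q ≤ th q) → EvC fun q => ∀ d : Pk n, PkOk q d → ∀ z, d.tinf q z ≤ 0 →
    d.ch q k z ≠ 0 → d.ch q j z ≠ 0 → ∀ a b : VV n → ℝ,
      34 * den d q (coz L e q d k) a b z ≤ den d q (Mz L q d j) a b z

/-- The constant for the cut-off of `A1`. -/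
def Ba (n : ℕ) (B : Cst → ℝ) (q : Cst) : ℝ := n * |B q| + 1

theorem Ba_nb {B : Cst → ℝ} (hB : NB_c' B) : NB_c' (Ba n B) := fun q => by
  unfold Ba
  rw [hB q]

theorem Ba_one (n : ℕ) (B : Cst → ℝ) (q : Cst) : 1 ≤ Ba n B q := by
  unfold Ba
  have : 0 ≤ (n : ℝ) * |B q| := by positivity
  linarith

/-- The bounds of the cut-off of `A1`. -/
theorem cb_of {B : Cst → ℝ} (hq : NC n q) (h : PkOk q d) (hB : ∀ i,
    dx i (d.ch q .A1) z ^ 2 ≤ B q ∧ dy i (d.ch q .A1) z ^ 2 ≤ B q) :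
    H338.E.Cb d.sx d.sy (d.ch q .A1) (Ba n B q) z := by
  have key : ∀ f : Fin n → ℝ, (∀ i, f i ^ 2 ≤ B q) → ∑ i, f i ^ 2 ≤ Ba n B q := by
    intro f hf
    calc ∑ i, f i ^ 2 ≤ ∑ _i : Fin n, |B q| :=
          Finset.sum_le_sum fun i _ => (hf i).trans (le_abs_self _)
      _ = n * |B q| := by rw [Finset.sum_const, Finset.card_univ, Fintype.card_fin, nsmul_eq_mul]
      _ ≤ _ := by unfold Ba; linarith
  have ex : ∀ i, d.sx.D i (d.ch q .A1) z = dx i (d.ch q .A1) z := fun i => one_mul _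
  have ey : ∀ i, d.sy.D i (d.ch q .A1) z = dy i (d.ch q .A1) z := fun i => one_mul _
  have h1 : ∑ i, d.sx.D i (d.ch q .A1) z ^ 2 ≤ Ba n B q :=
    key _ fun i => by rw [ex]; exact (hB i).1
  have h2 : ∑ i, d.sy.D i (d.ch q .A1) z ^ 2 ≤ Ba n B q :=
    key _ fun i => by rw [ey]; exact (hB i).2
  have h3 := Ba_one n B q
  refine ⟨h1, h2, ?_, ?_⟩
  · have := (fx_close hq h (d.ch q .A1) z).2
    have e : d.sx.F (d.ch q .A1) z = d.sx.Γ (d.ch q .A1) (d.ch q .A1) z := rfl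
    rw [e] at this
    linarith
  · have := (fy_close hq h (d.ch q .A1) z).2
    have e : d.sy.F (d.ch q .A1) z = d.sy.Γ (d.ch q .A1) (d.ch q .A1) z := rfl
    rw [e] at this
    linarith

/-- The threshold for `e` in `(A1, zI)`. -/
def tI (n : ℕ) (L : Lc n) (B : Cst → ℝ) (q : Cst) : ℝ := L.cI q / (9792 * Ba n B q)

theorem tI_sm (hL : L.Ok) {B : Cst → ℝ} (hB : NB_c' B) : SmE (tI n L B) := by
  refine ⟨fun q => ?_, fun q => ?_⟩
  · unfold tI
    rw [nb_c hL.cI.2 q, Ba_nb hB q]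
  · have h1 := hL.cI.1 q
    have h2 := Ba_one n B q
    unfold tI
    positivity

/-- `1 + 5 cK + aC`. -/
def dI (q : Cst) : ℝ := 1 + 5 * q.cK + q.aC

/-- The threshold for `M₀` in `(A1, zI)`. -/
def f2 (n : ℕ) (L : Lc n) (B e : Cst → ℝ) (q : Cst) : ℝ :=
  102 * (AM L q * (1 + q.aC) * Ba n B q) * dI q / (e q * L.cI q)

theorem f2_nb (hL : L.Ok) {B e : Cst → ℝ} (hB : NB_c' B) (he : NB_c' e) :
    NB_c' (f2 n L B e) := fun q => by
  have h1 : dI q.b_c' = dI q := rfl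
  have h2 : q.b_c'.aC = q.aC := rfl
  unfold f2
  rw [nb_c hL.cI.2 q, Ba_nb hB q, AM_nb hL q, he q, h1, h2]

theorem tl_nn {c : ℝ} {N ρx ρy : VV n → ℝ} (hc : 0 ≤ c) (hN : 0 ≤ N z) :
    H850.E.Nn (TL c N ρx ρy) z := by
  refine ⟨le_rfl, ?_, ?_, le_rfl, ?_, ?_, le_rfl, le_rfl⟩ <;> simp only [TL] <;> positivity

/-- **The pair `(A1, zI)`.** -/
theorem pay_A1_zI (hL : L.Ok) (hW : RowWX n) (hD : RowD n) : PayEF L .A1 .zI := by
  obtain ⟨B, hB, hD⟩ := hD
  refine ⟨tI n L B, tI_sm hL hB, fun e he hle => ?_⟩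
  have hM1 : EvC fun q => f2 n L B e q ≤ q.M₀ := ev_M₀ (nb_M (f2_nb hL hB he.1))
  have hM2 : EvC fun q => q.aC * max 1 (f2 n L B e q) ≤ q.M₀ := ev_M₀ (nb_M fun q => by
    have h2 : q.b_c'.aC = q.aC := rfl
    rw [f2_nb hL hB he.1 q, h2])
  refine ((((evNC n).and hW).and hD).and (hM1.and hM2)).mono ?_
  rintro q ⟨⟨⟨hq, hW⟩, hD⟩, hM1, hM2⟩ d h z ht hk hj a b
  have hz := ly_of hq h (Or.inr (Or.inl rfl)) (Or.inr (Or.inr (Or.inl rfl))) hj hk
  have hp := pt_of hL hq h hz (hW d h .A1 (by simp) z hk)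
  have hEb : max 1 (f2 n L B e q) ≤ d.E q z := E_big hq h hz (by decide) hM2
  have hE1 : 1 ≤ d.E q z := (le_max_left _ _).trans hEb
  have hE2 : f2 n L B e q ≤ d.E q z := (le_max_right _ _).trans hEb
  have hBa := Ba_one n B q
  have a1 := aM_pos hL hq
  have a2 := AM_pos hL q
  have a3 := aF_pos hq
  have hcI := hL.cI.1 q
  have hcN := hL.cN.1 q
  have he0 := he.2 q
  have haC := hq.aC
  have hcK := hq.cK
  have hN1 : 1 ≤ d.N q z := hq.nr.M1.trans hp.N1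
  have hu : d.u q z ≤ d.uta q := hq.nr.u_le h hz.nk hz.ts
  have hNE : d.N q z ≤ q.aC * d.E q z :=
    sd_e0 hz.ne hz.nk (by decide) (hq.nr.sm d h).cp hq.aC (h.N_pos hq.nr.M1 _)
  have hmK : d.m q z ≤ 2 * (q.cK * d.Kf q z) := sd_zI hz.ne (hq.nr.sm d h).cp
  have hK : d.Kf q z ≤ (2 + 1 / 20) * d.N q z := h.top.k1 _ hu
  have hm5 : d.m q z ≤ 5 * q.cK * d.N q z := by
    have := mul_le_mul_of_nonneg_left hK hcK.le
    have h0 : 0 ≤ q.cK * d.N q z := by positivity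
    linarith
  have hx0 : 0 ≤ aM L q * (d.E q z + sg L q * d.N q z) :=
    mul_nonneg a1.le (by linarith [hp.Ex])
  have hm0 : 0 ≤ mA L.μA q d z := hx0.trans hp.m1
  have hmm0 : 0 ≤ d.m q z := mul_nonneg hp.E0.le (hz.r2_pos hq).le
  -- `m_A ≤ A E`
  have hmA : mA L.μA q d z ≤ AM L q * (1 + q.aC) * d.E q z := by
    have h1 : d.E q z + sg L q * d.N q z ≤ (1 + q.aC) * d.E q z := by linarith [hp.xE]
    calc mA L.μA q d z ≤ AM L q * (d.E q z + sg L q * d.N q z) := hp.m2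
      _ ≤ AM L q * ((1 + q.aC) * d.E q z) := mul_le_mul_of_nonneg_left h1 a2.le
      _ = _ := by ring
  have hdI : 1 ≤ dI q := by unfold dI; linarith
  -- the number
  have e1 : 102 * (AM L q * (1 + q.aC) * Ba n B q) * dI q = f2 n L B e q * (e q * L.cI q) := by
    unfold f2
    field_simp
  have lhs : 34 * (3 / e q * (mA L.μA q d z * Ba n B q)) ≤
      L.cI q * (f2 n L B e q * d.E q z) / dI q := by
    rw [le_div_iff₀ (by linarith)]
    have h1 : mA L.μA q d z * Ba n B q ≤ AM L q * (1 + q.aC) * d.E q z * Ba n B q :=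
      mul_le_mul_of_nonneg_right hmA (by linarith)
    calc 34 * (3 / e q * (mA L.μA q d z * Ba n B q)) * dI q ≤
          34 * (3 / e q * (AM L q * (1 + q.aC) * d.E q z * Ba n B q)) * dI q := by gcongr
      _ = (102 * (AM L q * (1 + q.aC) * Ba n B q) * dI q) * d.E q z / e q := by ring
      _ = f2 n L B e q * (e q * L.cI q) * d.E q z / e q := by rw [e1]
      _ = _ := by field_simp
  have hf2 : 0 ≤ f2 n L B e q := by
    unfold f2
    positivity
  show 34 * (H747.SW.coA d.sx d.sy (d.W q) (mA L.μA q d) (d.ch q .A1) (e q)).dens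
      d.sx d.sy (fun _ => 0) (fun _ => 0) (d.W q) a b z ≤
    (H165.Tab.MI (nu L.kz q d) (L.cI q) + TL (L.cN q) (Na d) (rx q d) (ry q d)).dens
      d.sx d.sy (fun _ => 0) (fun _ => 0) (d.W q) a b z
  rw [Q8.dens_add]
  have hT := H850.E.dens_nonneg (σ := d.sx) (τ := d.sy) (v₁ := fun _ => 0) (v₂ := fun _ => 0)
    (W := d.W q) (a := a) (b := b) (tl_nn (z := z) (ρx := rx q d) (ρy := ry q d) hcN.le
      (Na_nn hq h z))
  have main := H338.E.coA_MI (σ := d.sx) (τ := d.sy) (v₁ := fun _ => 0) (v₂ := fun _ => 0)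
    (W := d.W q) (a := a) (b := b) (z := z) (m := mA L.μA q d) (χ := d.ch q .A1) (η := e q)
    (B := Ba n B q) (q := 34) (c := L.cI q) (ν := nu L.kz q d) he0 (by norm_num) hcI.le hm0
    (by linarith) hp.E0.le (cb_of hq h (hD d h z ht hk)) hp.v1 hp.v2 ?_ ?_ ?_
  · linarith
  · have h1 := hle q
    unfold tI at h1
    rw [le_div_iff₀ (by positivity)] at h1
    linarith
  · show 34 * (3 / e q * (mA L.μA q d z * Ba n B q)) ≤ L.cI q * d.E q z ^ 2
    refine lhs.trans ?_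
    rw [div_le_iff₀ (by linarith)]
    have h1 : f2 n L B e q * d.E q z ≤ d.E q z ^ 2 := by nlinarith [hp.E0]
    have h2 : d.E q z ^ 2 ≤ d.E q z ^ 2 * dI q := le_mul_of_one_le_right (sq_nonneg _) hdI
    have h3 := mul_le_mul_of_nonneg_left (h1.trans h2) hcI.le
    linarith
  · show 34 * (3 / e q * (mA L.μA q d z * Ba n B q)) ≤
      L.cI q * (d.N q z ^ 2 * d.E q z ^ 2 / (d.E q z * (1 + d.m q z) + d.N q z ^ 2))
    refine lhs.trans ?_
    have hE := hp.E0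
    have hden : 0 < d.E q z * (1 + d.m q z) + d.N q z ^ 2 := by positivity
    have hden2 : d.E q z * (1 + d.m q z) + d.N q z ^ 2 ≤ dI q * (d.E q z * d.N q z) := by
      have h1 : 1 + d.m q z ≤ (1 + 5 * q.cK) * d.N q z := by linarith
      have h2 := mul_le_mul_of_nonneg_left h1 hE.le
      have h3 := mul_le_mul_of_nonneg_left hNE (by linarith : 0 ≤ d.N q z)
      unfold dI
      linarith
    rw [mul_div_assoc]
    refine mul_le_mul_of_nonneg_left ?_ hcI.le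
    rw [div_le_div_iff₀ (by linarith) hden]
    have h4 : f2 n L B e q ≤ d.N q z := hM1.trans hp.N1
    calc f2 n L B e q * d.E q z * (d.E q z * (1 + d.m q z) + d.N q z ^ 2) ≤
          d.N q z * d.E q z * (dI q * (d.E q z * d.N q z)) := by gcongr
      _ = d.N q z ^ 2 * d.E q z ^ 2 * dI q := by ring

end Vale.Agent.P088.R2.H165.NF
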