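import Vale.Agent.P088.R2.H165.NF.W
import Vale.Agent.P088.R2.H165.PR
import Vale.Agent.P088.R2.H338.E.PR
import Vale.Agent.P088.R2.H455.E.Lett

/-!
# P088, stage 3, EST': the layer `r`: the numbers for the payments between the near zones and `A1`
-/

open Set Filter
open scoped Topology ContDiff Matrix

noncomputable section

namespace Vale.Agent.P088.R2.H165.NF

open Vale.Agent.P088.LR Vale.Agent.P088.HY Vale.Agent.P088.R2.H961.GW Vale.Agent.P088.R2.H464.Cu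
open Vale.Agent.P088.R2.H31.EP Vale.Agent.P088.R2.H551.E
open Vale.Agent.P088.R2.H455.E
open Vale.Agent.P088.R2.H867.EP (Cut Zo path sd Near Off)
open Vale.Agent.P088.R2.H867.Z (sq1 sqp Zc sq1_nn sqp_nn)
open Vale.Agent.P088.R2.H747.A (GG mA Wx2 Wy2)

open Ly (cW cX)

variable {n : ℕ} {q : Cst} {d : Pk n} {z : VV n} {k : Zo} {L : Lc n}

/-! ## The constants -/

/-- `aM x ≤ m_A ≤ AM x`, `x = E + s N`. -/
def aM (L : Lc n) (q : Cst) : ℝ := min (L.μA q * q.c₀ / 2) (1 / 400)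

def AM (L : Lc n) (q : Cst) : ℝ := 4 * L.μA q + 1 + 1 / (400 * L.cs q)

/-- `F ≥ aF (N + E)²`. -/
def aF (q : Cst) : ℝ := 3 / 4 * (q.rT / 6 * (q.c₀ ^ 2 / 2)) ^ 2

/-- `∑ |D_i W|² ≤ Wc (N + E)²`. -/
def Wc (n : ℕ) : ℝ := n * cW n ^ 2

/-- `|D χ|² ≤ Bz`. -/
def Bz (n : ℕ) (q : Cst) : ℝ := 4 * n * cX n q ^ 2 + 1

theorem Wc_nn (n : ℕ) : 0 ≤ Wc n := by unfold Wc; positivity

theorem Bz_one (n : ℕ) (q : Cst) : 1 ≤ Bz n q := by
  have : 0 ≤ 4 * (n : ℝ) * cX n q ^ 2 := by positivity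
  unfold Bz
  linarith

theorem aF_pos (hq : NC n q) : 0 < aF q := by
  have h1 := hq.rT
  have h2 := hq.c0
  unfold aF
  positivity

theorem aM_pos (hL : L.Ok) (hq : NC n q) : 0 < aM L q := by
  have h1 := hL.μA.1 q
  have h2 := hq.c0
  unfold aM
  exact lt_min (by positivity) (by norm_num)

theorem AM_pos (hL : L.Ok) (q : Cst) : 0 < AM L q := by
  have h1 := hL.μA.1 q
  have h2 := (hL.cs.1 q).1
  unfold AM
  positivity

/-! ## The numbers at a point -/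

/-- The numbers at a point of the layer. -/
structure Pt (L : Lc n) (q : Cst) (d : Pk n) (k : Zo) (x : ℝ) (z : VV n) : Prop where
  E0 : 0 < d.E q z
  N1 : q.M₀ ≤ d.N q z
  Ex : d.E q z ≤ x
  xE : x ≤ d.E q z + d.N q z
  m1 : aM L q * x ≤ mA L.μA q d z
  m2 : mA L.μA q d z ≤ AM L q * x
  f1 : aF q * (d.N q z + d.E q z) ^ 2 ≤ d.sx.F (d.W q) z
  f2 : aF q * (d.N q z + d.E q z) ^ 2 ≤ d.sy.F (d.W q) z
  w1 : ∑ i, d.sx.D i (d.W q) z ^ 2 ≤ Wc n * (d.N q z + d.E q z) ^ 2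
  w2 : ∑ i, d.sy.D i (d.W q) z ^ 2 ≤ Wc n * (d.N q z + d.E q z) ^ 2
  v1 : ∑ i, d.sx.D i (d.W q) z ^ 2 ≤ 2 * d.sx.F (d.W q) z
  v2 : ∑ i, d.sy.D i (d.W q) z ^ 2 ≤ 2 * d.sy.F (d.W q) z
  c1 : sq1 (d.ch q k) z ≤ Bz n q
  c2 : sqp (d.ch q k) z ≤ Bz n q

theorem NG_ge (hq : NC n q) (h : PkOk q d) (hz : Ly q d k z) :
    q.c₀ ^ 2 / 2 * (d.N q z + d.E q z) ≤ H747.A.NG q d z ∧
      H747.A.NG q d z ≤ d.N q z + 2 * d.E q z ∧ d.N q z ≤ H747.A.NG q d z := by
  obtain ⟨g1, g2, -, -⟩ := hz.GG_bd hq h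
  have hN : 0 < d.N q z := h.N_pos hq.nr.M1 _
  have hE := Ly.E_pos (q := q) (d := d) z
  have h0 := hq.c0
  have h1 := hq.nr.c1
  have h2 : 0 ≤ q.c₀ ^ 2 / 2 * d.E q z := by positivity
  unfold H747.A.NG
  refine ⟨?_, by linarith, by linarith⟩
  have h3 : q.c₀ ^ 2 / 2 * d.N q z ≤ 1 * d.N q z :=
    mul_le_mul_of_nonneg_right (by nlinarith) hN.le
  linarith

theorem sg_bd (hL : L.Ok) (hq : NC n q) : 0 < sg L q ∧ sg L q ≤ q.σ / q.R ∧ q.σ / q.R ≤ 1 ∧
    sg L q = L.cs q * (q.σ / q.R) := by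
  have hR := hq.nr.R0
  have hσ := hq.σ0
  have hσ1 := hq.nr.cd.inf.σ1
  have h1 := hL.cs.1 q
  have h2 : 0 < q.σ / q.R := by positivity
  refine ⟨mul_pos h1.1 h2, ?_, ?_, rfl⟩
  · exact mul_le_of_le_one_left h2.le h1.2
  · rw [div_le_one (by linarith)]
    linarith

theorem mA_bd (hL : L.Ok) (hq : NC n q) (h : PkOk q d) (hz : Ly q d k z) :
    aM L q * (d.E q z + sg L q * d.N q z) ≤ mA L.μA q d z ∧
      mA L.μA q d z ≤ AM L q * (d.E q z + sg L q * d.N q z) := by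
  obtain ⟨-, -, g3, g4⟩ := hz.GG_bd hq h
  obtain ⟨-, n2, n3⟩ := NG_ge hq h hz
  obtain ⟨s0, s1, s2, s3⟩ := sg_bd hL hq
  have hN : 0 < d.N q z := h.N_pos hq.nr.M1 _
  have hE := Ly.E_pos (q := q) (d := d) z
  have hμ := hL.μA.1 q
  have hcs := (hL.cs.1 q).1
  have hR : 0 < q.R := by linarith [hq.nr.R0]
  have hσ := hq.σ0
  have e1 : q.σ / (400 * q.R) = 1 / 400 * (q.σ / q.R) := by field_simp
  have hs : 0 < q.σ / q.R := by positivity
  have a1 : aM L q ≤ L.μA q * q.c₀ / 2 := min_le_left _ _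
  have a2 : aM L q ≤ 1 / 400 := min_le_right _ _
  unfold mA
  rw [e1]
  constructor
  · have b1 : aM L q * d.E q z ≤ L.μA q * (GG q d z / H747.A.rr d z) := by
      calc aM L q * d.E q z ≤ L.μA q * q.c₀ / 2 * d.E q z := mul_le_mul_of_nonneg_right a1 hE.le
        _ = L.μA q * (q.c₀ / 2 * d.E q z) := by ring
        _ ≤ _ := mul_le_mul_of_nonneg_left g3 hμ.le
    have b2 : aM L q * (sg L q * d.N q z) ≤ 1 / 400 * (q.σ / q.R) * H747.A.NG q d z := by
      calc aM L q * (sg L q * d.N q z) ≤ 1 / 400 * (sg L q * d.N q z) :=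
            mul_le_mul_of_nonneg_right a2 (by positivity)
        _ ≤ 1 / 400 * (q.σ / q.R * H747.A.NG q d z) := by gcongr
        _ = _ := by ring
    linarith
  · have b1 : L.μA q * (GG q d z / H747.A.rr d z) ≤ 4 * L.μA q * d.E q z := by
      calc L.μA q * (GG q d z / H747.A.rr d z) ≤ L.μA q * (4 * d.E q z) :=
            mul_le_mul_of_nonneg_left g4 hμ.le
        _ = _ := by ring
    have b2 : 1 / 400 * (q.σ / q.R) * H747.A.NG q d z ≤
        1 / (400 * L.cs q) * (sg L q * d.N q z) + d.E q z := by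
      have e2 : 1 / (400 * L.cs q) * (sg L q * d.N q z) = 1 / 400 * (q.σ / q.R) * d.N q z := by
        rw [s3]
        field_simp
      rw [e2]
      have c1 := mul_le_mul_of_nonneg_left n2 (by positivity : 0 ≤ 1 / 400 * (q.σ / q.R))
      have c2 : q.σ / q.R * d.E q z ≤ 1 * d.E q z := mul_le_mul_of_nonneg_right s2 hE.le
      linarith
    have p1 : 0 ≤ 1 / (400 * L.cs q) * d.E q z := by positivity
    have p2 : 0 ≤ (4 * L.μA q + 1) * (sg L q * d.N q z) := by positivity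
    unfold AM
    linarith

/-- **The numbers.** -/
theorem pt_of (hL : L.Ok) (hq : NC n q) (h : PkOk q d) (hz : Ly q d k z)
    (hW : (q.rT / 6 * H747.A.NG q d z) ^ 2 ≤ Wx2 q d z ∧
      (q.rT / 6 * H747.A.NG q d z) ^ 2 ≤ Wy2 q d z) :
    Pt L q d k (d.E q z + sg L q * d.N q z) z := by
  have hN : 0 < d.N q z := h.N_pos hq.nr.M1 _
  have hE := Ly.E_pos (q := q) (d := d) z
  obtain ⟨s0, s1, s2, -⟩ := sg_bd hL hq
  obtain ⟨m1, m2⟩ := mA_bd hL hq h hz
  obtain ⟨n1, -, -⟩ := NG_ge hq h hz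
  obtain ⟨x1, x2⟩ := hz.sW_le hq h
  have fx := fx_close hq h (d.W q) z
  have fy := fy_close hq h (d.W q) z
  have sx0 : 0 ≤ ∑ i, d.sx.D i (d.W q) z ^ 2 := Finset.sum_nonneg fun _ _ => sq_nonneg _
  have sy0 : 0 ≤ ∑ i, d.sy.D i (d.W q) z ^ 2 := Finset.sum_nonneg fun _ _ => sq_nonneg _
  have hrT := hq.rT
  have hc := hq.c0
  have low : aF q * (d.N q z + d.E q z) ^ 2 ≤ 3 / 4 * (q.rT / 6 * H747.A.NG q d z) ^ 2 := by
    have h1 : q.rT / 6 * (q.c₀ ^ 2 / 2) * (d.N q z + d.E q z) ≤ q.rT / 6 * H747.A.NG q d z := by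
      rw [mul_assoc]
      exact mul_le_mul_of_nonneg_left n1 (by positivity)
    have h2 := pow_le_pow_left₀ (by positivity) h1 2
    unfold aF
    nlinarith
  have hX := Ly.ch_le hq h hz
  refine ⟨hE, h.N_ge _, ?_, ?_, m1, m2, ?_, ?_, x1, x2, ?_, ?_, ?_, ?_⟩
  · have : 0 ≤ sg L q * d.N q z := by positivity
    linarith
  · have : sg L q * d.N q z ≤ 1 * d.N q z := mul_le_mul_of_nonneg_right (s1.trans s2) hN.le
    linarith
  · have h1 : Wx2 q d z = ∑ i, d.sx.D i (d.W q) z ^ 2 := rfl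
    rw [h1] at hW
    linarith [hW.1, fx.1]
  · have h1 : Wy2 q d z = ∑ i, d.sy.D i (d.W q) z ^ 2 := rfl
    rw [h1] at hW
    linarith [hW.2, fy.1]
  · linarith [fx.1]
  · linarith [fy.1]
  · unfold sq1
    calc ∑ i, (dx i (d.ch q k) z ^ 2 + dy i (d.ch q k) z ^ 2) ≤ ∑ _i : Fin n, 2 * cX n q ^ 2 :=
          Finset.sum_le_sum fun i _ => by
            have h1 := pow_le_pow_left₀ (abs_nonneg _) (hX i).1 2
            have h2 := pow_le_pow_left₀ (abs_nonneg _) (hX i).2 2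
            rw [sq_abs] at h1 h2
            linarith
      _ = n * (2 * cX n q ^ 2) := by
          rw [Finset.sum_const, Finset.card_univ, Fintype.card_fin, nsmul_eq_mul]
      _ ≤ _ := by
          have : 0 ≤ (n : ℝ) * cX n q ^ 2 := by positivity
          unfold Bz
          linarith
  · unfold sqp
    calc ∑ i, (dx i (d.ch q k) z + dy i (d.ch q k) z) ^ 2 ≤ ∑ _i : Fin n, 4 * cX n q ^ 2 :=
          Finset.sum_le_sum fun i _ => by
            have h1 := pow_le_pow_left₀ (abs_nonneg _) (hX i).1 2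
            have h2 := pow_le_pow_left₀ (abs_nonneg _) (hX i).2 2
            rw [sq_abs] at h1 h2
            nlinarith [sq_nonneg (dx i (d.ch q k) z - dy i (d.ch q k) z)]
      _ = n * (4 * cX n q ^ 2) := by
          rw [Finset.sum_const, Finset.card_univ, Fintype.card_fin, nsmul_eq_mul]
      _ ≤ _ := by
          unfold Bz
          linarith

/-- `Φ'' ≤ C N e^u` for `u ≤ uta`. -/
theorem K_le (hq : NC n q) (h : PkOk q d) (hu : d.u q z ≤ d.uta q) :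
    d.Kf q z ≤ (q.ph.Cb + 3) * (d.N q z * d.E q z) := by
  have hN : 1 ≤ d.N q z := hq.nr.M1.trans (h.N_ge _)
  have hE := Ly.E_pos (q := q) (d := d) z
  have hCb := hq.gt.wc.Cb
  rcases le_total (d.u q z) (d.uth q / 2) with h1 | h1
  · have h2 := h.top.e2 _ h1
    have h3 := h.ph.isΦ.k2 (d.u q z)
    have h4 : d.Kf q z ≤ q.ph.Cb * d.E q z := by
      unfold Pk.Kf Pk.E
      rw [h2]
      exact h3
    have h5 : q.ph.Cb * d.E q z ≤ q.ph.Cb * (d.N q z * d.E q z) :=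
      mul_le_mul_of_nonneg_left (le_mul_of_one_le_left hE.le hN) hCb.le
    have h6 : 0 ≤ d.N q z * d.E q z := by positivity
    linarith
  · have hL := H404.INF.lvG hq.gt.gc.inf h
    have hR := hq.nr.R0
    have h2 : 0 ≤ d.u q z := by
      refine le_trans ?_ h1
      have : d.uth q = 2 * d.l₀ q + 22 / 10 * q.R := rfl
      rw [this]
      have := hL.l0
      linarith
    have hE1 : 1 ≤ d.E q z := Real.one_le_exp h2
    have h3 : d.Kf q z ≤ (2 + 1 / 20) * d.N q z := h.top.k1 _ hu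
    have h4 : d.N q z ≤ d.N q z * d.E q z := le_mul_of_one_le_right (by linarith) hE1
    have h5 : 0 ≤ q.ph.Cb * (d.N q z * d.E q z) := by positivity
    linarith

end Vale.Agent.P088.R2.H165.NF
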