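import Vale.Agent.P088.R2.H932.EP.Pk4
import Vale.Agent.P088.R2.H281.A.Sup
import Vale.Agent.P088.R2.H509.EP.TG

/-!
# P088, stage 3, EST': the layer `r` (`c₀ ≤ r ≤ 2 c₀`): the numbers of the weight

Where a zone near the diagonal and a zone off the diagonal are both alive: the size of the
derivatives of `W`, of `G`, of the margin of zone A and of the cut-offs of the near zones.
-/

open Set Filter
open scoped Topology ContDiff Matrix

noncomputable section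

namespace Vale.Agent.P088.R2.H165.NF

open Vale.Agent.P088.LR Vale.Agent.P088.HY Vale.Agent.P088.R2.H961.GW Vale.Agent.P088.R2.H464.Cu
open Vale.Agent.P088.R2.H31.EP
open Vale.Agent.P088.R2.H222 (dl)
open Vale.Agent.P088.R2.H932.EP
open Vale.Agent.P088.R2.H867.EP (Cut Zo path sd Near Off on on_le on_nn)

variable {n : ℕ} {q : Cst} {d : Pk n} {z : VV n} {k : Zo}

/-! ## The conditions on the constants -/

/-- The conditions on the constants. -/
structure NC (n : ℕ) (q : Cst) : Prop where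
  nr : NrC n q
  gt : H509.TG.GT n q
  c0 : 0 < q.c₀
  ε4 : n * q.ε ≤ 1 / 4
  r1 : 4 ≤ (q.r₁ * Real.exp (-1)) ^ 2
  σ0 : 0 < q.σ
  ηc : q.ηc ≤ 1
  rT : 0 < q.rT
  aC : 0 < q.aC
  cK : 0 < q.cK

theorem evNC (n : ℕ) : EvC (NC n) := by
  have h1 : EvC fun q => n * q.ε ≤ 1 / 4 :=
    EvC.at_ε (fun _ t => n * t ≤ 1 / 4) fun _ =>
      (sml_le (a := 1 / 4 / (n + 1)) (by positivity)).mono fun t ht => by
        rw [le_div_iff₀ (by positivity)] at ht
        have : (0 : ℝ) ≤ n := Nat.cast_nonneg n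
        nlinarith
  have h2 : EvC fun q => 0 < q.c' → 4 ≤ (q.c' * q.M₀ / 2 * Real.exp (-1)) ^ 2 :=
    EvC.at_M₀ (fun q t => 0 < q.c' → 4 ≤ (q.c' * t / 2 * Real.exp (-1)) ^ 2) fun q => by
      by_cases h : 0 < q.c'
      · filter_upwards [eventually_ge_atTop (4 * Real.exp 1 / q.c')] with t ht _
        rw [div_le_iff₀ h] at ht
        have h3 : Real.exp 1 * Real.exp (-1) = 1 := by rw [← Real.exp_add]; simp
        have h4 := Real.exp_pos (-1 : ℝ)
        have h5 : 2 ≤ q.c' * t / 2 * Real.exp (-1) := by nlinarith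
        nlinarith
      · exact Eventually.of_forall fun _ h' => absurd h' h
  have h3 : EvC fun q => q.ηc ≤ 1 := EvC.at_ηc (fun _ t => t ≤ 1) fun _ => sml_le one_pos
  refine (((evNr n).and (H509.TG.evGT n)).and ((h1.and h2).and (h3.and EvC.pos))).mono ?_
  rintro q ⟨⟨a1, a2⟩, ⟨a3, a4⟩, a5, p⟩
  exact ⟨a1, a2, p.1.2.2.2.2.2.1, a3, a4 p.2.1.2.2.1, p.2.1.2.1, a5, p.1.2.2.2.2.2.2.2.1,
    p.1.2.2.2.2.1, p.1.2.2.2.1⟩

/-! ## Ellipticity -/

theorem s₂_close (h : PkOk q d) (x : V n) (i j : Fin n) : |d.s₂ x i j - dl i j| ≤ q.ε := by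
  have := h.rg.cl₂ i j 0 (by norm_num) x
  rwa [norm_iteratedFDeriv_zero, pow_zero, mul_one, Real.norm_eq_abs] at this

theorem fx_close (hq : NC n q) (h : PkOk q d) (f : VV n → ℝ) (z : VV n) :
    3 / 4 * ∑ i, d.sx.D i f z ^ 2 ≤ d.sx.F f z ∧ d.sx.F f z ≤ 5 / 4 * ∑ i, d.sx.D i f z ^ 2 := by
  have h1 := bf_close (fun i j => h.s₁_close z.1 i j) fun i => d.sx.D i f z
  have h2 : bf (d.s₁ z.1) (fun i => d.sx.D i f z) (fun i => d.sx.D i f z) = d.sx.F f z := rfl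
  have h3 : 0 ≤ ∑ i, d.sx.D i f z ^ 2 := Finset.sum_nonneg fun _ _ => sq_nonneg _
  have h4 := mul_le_mul_of_nonneg_right hq.ε4 h3
  rw [h2] at h1
  have h5 := abs_le.1 h1
  constructor <;> linarith [h5.1, h5.2]

theorem fy_close (hq : NC n q) (h : PkOk q d) (f : VV n → ℝ) (z : VV n) :
    3 / 4 * ∑ i, d.sy.D i f z ^ 2 ≤ d.sy.F f z ∧ d.sy.F f z ≤ 5 / 4 * ∑ i, d.sy.D i f z ^ 2 := by
  have h1 := bf_close (fun i j => s₂_close h z.2 i j) fun i => d.sy.D i f z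
  have h2 : bf (d.s₂ z.2) (fun i => d.sy.D i f z) (fun i => d.sy.D i f z) = d.sy.F f z := rfl
  have h3 : 0 ≤ ∑ i, d.sy.D i f z ^ 2 := Finset.sum_nonneg fun _ _ => sq_nonneg _
  have h4 := mul_le_mul_of_nonneg_right hq.ε4 h3
  rw [h2] at h1
  have h5 := abs_le.1 h1
  constructor <;> linarith [h5.1, h5.2]

/-! ## The layer -/

/-- A point of the layer `r` where the near zone `k` is alive. -/
structure Ly (q : Cst) (d : Pk n) (k : Zo) (z : VV n) : Prop where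
  nk : Near k
  ne : d.ch q k z ≠ 0
  r1 : q.c₀ ^ 2 ≤ d.r2 z
  r2 : d.r2 z ≤ 4 * q.c₀ ^ 2

theorem ly_of (hq : NC n q) (h : PkOk q d) (hk : Near k) {j : Zo} (hj : Off j)
    (h1 : d.ch q k z ≠ 0) (h2 : d.ch q j z ≠ 0) : Ly q d k z :=
  ⟨hk, h1, sd_off h2 hj (hq.nr.sm d h).cp, sd_r h1 hk (hq.nr.sm d h).cp⟩

namespace Ly

theorem ts (hz : Ly q d k z) : z ∈ tsupport (d.ch q k) := subset_tsupport _ hz.ne

theorem ρ_eq (z : VV n) : d.r2 z = 2 * rq (gi d.s₁) z := rfl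

theorem r2_le (hq : NC n q) (hz : Ly q d k z) : d.r2 z ≤ 1 / 4 := by
  have h1 := hz.r2
  have h2 := hq.nr.c1
  have h3 := hq.c0
  nlinarith

theorem r2_pos (hq : NC n q) (hz : Ly q d k z) : 0 < d.r2 z :=
  lt_of_lt_of_le (by have := hq.c0; positivity) hz.r1

theorem E_pos (z : VV n) : 0 < d.E q z := Real.exp_pos _

/-- The profile. -/
theorem pn (hq : NC n q) (hz : Ly q d k z) : H606.EP.Pn q.e₁ (d.r2 z) :=
  H606.EP.pn_ok hq.nr.rad.e0 (hz.r2_pos hq).le (by linarith [hz.r2_le hq])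

theorem rr_bd (hq : NC n q) (hz : Ly q d k z) :
    q.c₀ ≤ H747.A.rr d z ∧ H747.A.rr d z ≤ 2 * q.c₀ ∧ H747.A.rr d z ^ 2 = d.r2 z := by
  have h0 := hq.c0
  have h1 : H747.A.rr d z ^ 2 = d.r2 z := Real.sq_sqrt (hz.r2_pos hq).le
  have h2 : 0 ≤ H747.A.rr d z := Real.sqrt_nonneg _
  refine ⟨?_, ?_, h1⟩
  · have := hz.r1
    rw [← h1] at this
    exact (abs_le_of_sq_le_sq' this h2).2
  · have := hz.r2
    rw [← h1] at this
    exact (abs_le_of_sq_le_sq' (by nlinarith) (by linarith)).2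

/-- `G = E S(r²)`. -/
theorem GG_eq (hq : NC n q) (h : PkOk q d) (hz : Ly q d k z) :
    H747.A.GG q d z = d.E q z * prS q.e₁ (d.r2 z) := by
  have h0 := hz.r2_pos hq
  have hr : 0 < √(d.r2 z) := Real.sqrt_pos.2 h0
  have hr2 : 0 < q.r₁ * Real.exp (-1) := h.ok.rc0.trans h.ok.rcd
  have h2 : √(d.r2 z) < q.r₁ * Real.exp (-1) := by
    rw [Real.sqrt_lt' hr2]
    exact lt_of_lt_of_le (by linarith [hz.r2_le hq]) hq.r1
  have h3 := h.sl.inn 1 0 (H747.A.ff q d z, H747.A.rr d z) hr h2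
  rw [if_pos rfl] at h3
  have h4 : H747.A.GG q d z = Real.exp (H747.A.ff q d z) := h3
  have hS : 0 < prS q.e₁ (d.r2 z) := hq.nr.rad.pp.S_pos h0
  rw [h4]
  unfold H747.A.ff H747.A.lS H747.A.rr Pk.E
  rw [Real.sq_sqrt h0.le, Real.exp_add, Real.exp_log hS]

theorem GG_bd (hq : NC n q) (h : PkOk q d) (hz : Ly q d k z) :
    q.c₀ ^ 2 / 2 * d.E q z ≤ H747.A.GG q d z ∧ H747.A.GG q d z ≤ 2 * d.E q z ∧
      q.c₀ / 2 * d.E q z ≤ H747.A.GG q d z / H747.A.rr d z ∧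
      H747.A.GG q d z / H747.A.rr d z ≤ 4 * d.E q z := by
  have hE := Ly.E_pos (q := q) (d := d) z
  have p := hz.pn hq
  have h0 := hz.r2_pos hq
  have h1 := hz.r2_le hq
  have h2 := hz.r1
  obtain ⟨r1, r2, r3⟩ := hz.rr_bd hq
  have c1 := hq.nr.c1
  have c0 := hq.c0
  have hr : 0 < H747.A.rr d z := by linarith
  rw [hz.GG_eq hq h]
  refine ⟨?_, ?_, ?_, ?_⟩
  · nlinarith [p.lo]
  · nlinarith [p.hi]
  · rw [le_div_iff₀ hr]
    have h3 : H747.A.rr d z ^ 2 / 2 ≤ prS q.e₁ (d.r2 z) := by rw [r3]; exact p.lo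
    have h4 : q.c₀ * H747.A.rr d z ≤ H747.A.rr d z ^ 2 := by nlinarith
    nlinarith
  · rw [div_le_iff₀ hr]
    have h3 : prS q.e₁ (d.r2 z) ≤ 8 * H747.A.rr d z ^ 2 := by rw [r3]; exact p.hi
    have h4 : 8 * H747.A.rr d z ^ 2 ≤ 4 * H747.A.rr d z := by nlinarith
    nlinarith

theorem N_ge (h : PkOk q d) (z : VV n) : q.M₀ ≤ d.N q z := h.N_ge _

/-! ## The derivatives of `W` -/

theorem W_ev (hq : NC n q) (h : PkOk q d) (hz : Ly q d k z) :
    d.W q =ᶠ[𝓝 z] fun w => d.Φ (d.u q w) +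
      Real.exp (d.u q w) * prS q.e₁ (2 * rq (gi d.s₁) w) := by
  have hs := hq.nr.sm d h
  have hc : Continuous fun w : VV n => 2 * rq (gi d.s₁) w := continuous_const.mul hs.rq.continuous
  have hlt : 2 * rq (gi d.s₁) z < (q.r₁ * Real.exp (-1)) ^ 2 := by
    have h1 := hz.r2_le hq
    have h2 := hq.r1
    have h3 : d.r2 z = 2 * rq (gi d.s₁) z := rfl
    linarith
  filter_upwards [hc.continuousAt.eventually (gt_mem_nhds hlt),
    H404.INF.W_near' hq.nr.cd.inf h (NrC.fin hz.nk) hz.ts] with w h1 h2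
  rw [h2.2.2.2.2]
  show d.Φ (d.u q w) + 1 * st (d.F q) (d.u q w) (2 * rq (gi d.s₁) w) = _
  rw [st_in' h.ok h1, one_mul]
  rfl

theorem fd_W (hq : NC n q) (h : PkOk q d) (hz : Ly q d k z) (v : VV n) :
    fderiv ℝ (d.W q) z v = deriv d.Φ (d.u q z) * fderiv ℝ (d.u q) z v +
      (d.E q z * fderiv ℝ (d.u q) z v * prS q.e₁ (d.r2 z) +
        d.E q z * (H606.EP.prS₁ q.e₁ (d.r2 z) * (2 * fderiv ℝ (rq (gi d.s₁)) z v))) := by
  have hs := hq.nr.sm d h
  have hu : HasFDerivAt (d.u q) (fderiv ℝ (d.u q) z) z :=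
    ((hs.u.differentiable (by simp)) z).hasFDerivAt
  have hρ : HasFDerivAt (rq (gi d.s₁)) (fderiv ℝ (rq (gi d.s₁)) z) z :=
    ((hs.rq.differentiable (by simp)) z).hasFDerivAt
  have k1 : HasDerivAt d.Φ (deriv d.Φ (d.u q z)) (d.u q z) :=
    ((h.Φs.differentiable (by simp)) _).hasDerivAt
  have h1 := k1.comp_hasFDerivAt z hu
  have h2 := hu.exp
  have h3 := (H606.EP.prS_d1 hq.nr.rad.e0 (2 * rq (gi d.s₁) z)).comp_hasFDerivAt z (hρ.const_mul 2)
  have h4 := h1.add (h2.mul h3)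
  rw [(hz.W_ev hq h).fderiv_eq]
  have h5 : HasFDerivAt (fun w => d.Φ (d.u q w) +
      Real.exp (d.u q w) * prS q.e₁ (2 * rq (gi d.s₁) w)) _ z := h4
  rw [h5.fderiv]
  simp only [_root_.add_apply, _root_.smul_apply, smul_eq_mul, Function.comp_apply]
  have e : d.r2 z = 2 * rq (gi d.s₁) z := rfl
  rw [e]
  unfold Pk.E
  ring

/-- The constant of the derivatives of `W`. -/
def cW (n : ℕ) : ℝ := 15 * cQ n cD

theorem cW_nn (n : ℕ) : 0 ≤ cW n := by
  have := cQ_nn (n := n) (D := cD) (by linarith [cD_two])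
  unfold cW; positivity

theorem W_le (hq : NC n q) (h : PkOk q d) (hz : Ly q d k z) (i : Fin n) :
    |fderiv ℝ (d.W q) z (Pi.single i 1, 0)| ≤ cW n * (d.N q z + d.E q z) ∧
      |fderiv ℝ (d.W q) z (0, Pi.single i 1)| ≤ cW n * (d.N q z + d.E q z) := by
  have hD : 0 ≤ cD := by linarith [cD_two]
  have hc := cQ_nn (n := n) hD
  have hR := hq.nr.R0
  have hr2 := hz.r2_le hq
  have hp : 0 < rq (gi d.s₁) z := by
    have h1 : 0 < 2 * rq (gi d.s₁) z := hz.r2_pos hq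
    linarith
  have hp1 : rq (gi d.s₁) z ≤ 1 := by
    have h1 : 2 * rq (gi d.s₁) z ≤ 1 / 4 := hr2
    linarith
  have C := hq.nr.cd.cd h (z := z) (by linarith) (by linarith [hq.nr.u0_le h hz.nk hz.ts])
  have ju := C.ju1 hD
  rw [← wt_one] at ju
  have jr := C.jr hD hp
  have hs1 : √(rq (gi d.s₁) z) ≤ 1 := Real.sqrt_le_one.2 hp1
  have hs0 : 0 < √(rq (gi d.s₁) z) := Real.sqrt_pos.2 hp
  have hd : 3 / 2 * (cQ n cD * rq (gi d.s₁) z) / √(rq (gi d.s₁) z) ≤ 3 / 2 * cQ n cD := by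
    rw [div_le_iff₀ hs0]
    have h1 : rq (gi d.s₁) z = √(rq (gi d.s₁) z) * √(rq (gi d.s₁) z) :=
      (Real.mul_self_sqrt hp.le).symm
    calc 3 / 2 * (cQ n cD * rq (gi d.s₁) z) =
          3 / 2 * cQ n cD * (√(rq (gi d.s₁) z) * √(rq (gi d.s₁) z)) := by rw [← h1]; ring
      _ ≤ 3 / 2 * cQ n cD * (1 * √(rq (gi d.s₁) z)) := by gcongr
      _ = _ := by ring
  have p := hz.pn hq
  have hE := Ly.E_pos (q := q) (d := d) z
  have hN : 0 < d.N q z := h.N_pos hq.nr.M1 _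
  have hS : 0 ≤ prS q.e₁ (d.r2 z) := le_trans (by have := hz.r2_pos hq; linarith) p.lo
  have hS2 : prS q.e₁ (d.r2 z) ≤ 2 := p.hi.trans (by linarith)
  have hS1 : 0 ≤ H606.EP.prS₁ q.e₁ (d.r2 z) := le_trans (by norm_num) p.l1
  have key : ∀ v : VV n, |fderiv ℝ (d.u q) z v| ≤ 3 / 2 * cQ n cD →
      |fderiv ℝ (rq (gi d.s₁)) z v| ≤ 3 / 2 * cQ n cD →
      |fderiv ℝ (d.W q) z v| ≤ cW n * (d.N q z + d.E q z) := by
    intro v h1 h2
    rw [hz.fd_W hq h v]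
    have e0 : deriv d.Φ (d.u q z) = d.N q z := rfl
    rw [e0]
    have a1 : |d.N q z * fderiv ℝ (d.u q) z v| ≤ d.N q z * (3 / 2 * cQ n cD) := by
      rw [abs_mul, abs_of_pos hN]
      exact mul_le_mul_of_nonneg_left h1 hN.le
    have a2 : |d.E q z * fderiv ℝ (d.u q) z v * prS q.e₁ (d.r2 z)| ≤
        d.E q z * (3 / 2 * cQ n cD) * 2 := by
      rw [abs_mul, abs_mul, abs_of_pos hE, abs_of_nonneg hS]
      exact mul_le_mul (mul_le_mul_of_nonneg_left h1 hE.le) hS2 hS (by positivity)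
    have a3 : |d.E q z * (H606.EP.prS₁ q.e₁ (d.r2 z) * (2 * fderiv ℝ (rq (gi d.s₁)) z v))| ≤
        d.E q z * (4 * (2 * (3 / 2 * cQ n cD))) := by
      rw [abs_mul, abs_mul, abs_mul, abs_of_pos hE, abs_of_nonneg hS1,
        abs_of_pos (by norm_num : (0 : ℝ) < 2)]
      exact mul_le_mul_of_nonneg_left (mul_le_mul p.b1 (by linarith)
        (by positivity) (by norm_num)) hE.le
    refine (abs_add_le _ _).trans ((add_le_add a1 ((abs_add_le _ _).trans (add_le_add a2 a3))).trans ?_)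
    have : 0 ≤ cQ n cD * d.N q z := by positivity
    unfold cW
    nlinarith
  have u1 := ju.dxy one_pos le_rfl hc i
  have r1 := jr.dxy hp hp1 (by positivity) i
  rw [Real.sqrt_one, div_one] at u1
  exact ⟨key _ u1.1 (r1.1.trans hd), key _ u1.2.1 (r1.2.1.trans hd)⟩

/-- `∑ |D_i W|²`. -/
theorem sW_le (hq : NC n q) (h : PkOk q d) (hz : Ly q d k z) :
    ∑ i, d.sx.D i (d.W q) z ^ 2 ≤ n * cW n ^ 2 * (d.N q z + d.E q z) ^ 2 ∧
      ∑ i, d.sy.D i (d.W q) z ^ 2 ≤ n * cW n ^ 2 * (d.N q z + d.E q z) ^ 2 := by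
  have hN : 0 < d.N q z := h.N_pos hq.nr.M1 _
  have hE := Ly.E_pos (q := q) (d := d) z
  have hb : 0 ≤ cW n * (d.N q z + d.E q z) := mul_nonneg (cW_nn n) (by positivity)
  have key : ∀ f : Fin n → ℝ, (∀ i, |f i| ≤ cW n * (d.N q z + d.E q z)) →
      ∑ i, f i ^ 2 ≤ n * cW n ^ 2 * (d.N q z + d.E q z) ^ 2 := by
    intro f hf
    calc ∑ i, f i ^ 2 ≤ ∑ _i : Fin n, (cW n * (d.N q z + d.E q z)) ^ 2 :=
          Finset.sum_le_sum fun i _ => by
            rw [← sq_abs (f i)]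
            exact pow_le_pow_left₀ (abs_nonneg _) (hf i) 2
      _ = _ := by
          rw [Finset.sum_const, Finset.card_univ, Fintype.card_fin, nsmul_eq_mul]
          ring
  constructor
  · refine key _ fun i => ?_
    have e : d.sx.D i (d.W q) z = fderiv ℝ (d.W q) z (Pi.single i 1, 0) := one_mul _
    rw [e]
    exact (hz.W_le hq h i).1
  · refine key _ fun i => ?_
    have e : d.sy.D i (d.W q) z = fderiv ℝ (d.W q) z (0, Pi.single i 1) := one_mul _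
    rw [e]
    exact (hz.W_le hq h i).2

/-! ## The cut-offs of the near zones -/

/-- The constant. -/
def cX (n : ℕ) (q : Cst) : ℝ := 60 * (BF * cN n q) / q.c₀

theorem cX_nb (n : ℕ) : NB_ηc (cX n) := fun _ => rfl

theorem αc_le (hq : NC n q) (i : Cut) : αc (cN n q) q i ≤ cN n q := by
  have h := hq.nr.cN_nn (n := n)
  have hR := hq.nr.R0
  cases i <;> simp only [αc, le_refl]
  · exact div_le_self h (by linarith)
  · exact mul_le_of_le_one_right h hq.ηc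

theorem Sα_le (hq : NC n q) (d : Pk n) (k : Zo) (z : VV n) : NrC.Sα d q k z ≤ 20 * cN n q := by
  have h := hq.nr.cN_nn (n := n)
  have hc : (path k).card ≤ 20 := by cases k <;> decide
  unfold NrC.Sα
  calc ∑ i ∈ path k, on (d.cv q i z) * αc (cN n q) q i ≤ ∑ _i ∈ path k, cN n q :=
        Finset.sum_le_sum fun i _ => by
          calc on (d.cv q i z) * αc (cN n q) q i ≤ 1 * cN n q :=
                mul_le_mul (on_le _) (Ly.αc_le hq i) (hq.nr.αc_nn i) zero_le_one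
            _ = _ := one_mul _
    _ = (path k).card * cN n q := by rw [Finset.sum_const, nsmul_eq_mul]
    _ ≤ 20 * cN n q := mul_le_mul_of_nonneg_right (by exact_mod_cast hc) h

theorem ch_le (hq : NC n q) (h : PkOk q d) (hz : Ly q d k z) (i : Fin n) :
    |dx i (d.ch q k) z| ≤ cX n q ∧ |dy i (d.ch q k) z| ≤ cX n q := by
  have hp : 0 < rq (gi d.s₁) z := by
    have h1 : 0 < 2 * rq (gi d.s₁) z := hz.r2_pos hq
    linarith
  have hp1 : rq (gi d.s₁) z ≤ 1 := by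
    have h1 : 2 * rq (gi d.s₁) z ≤ 1 / 4 := hz.r2_le hq
    linarith
  have hS := hq.nr.chS h hz.nk hp hp1
  have hB := NrC.BF0
  have hc0 := hq.c0
  have hcN := hq.nr.cN_nn (n := n)
  have hlo : q.c₀ / 2 ≤ √(rq (gi d.s₁) z) := by
    refine Real.le_sqrt_of_sq_le ?_
    have h1 : q.c₀ ^ 2 ≤ 2 * rq (gi d.s₁) z := hz.r1
    nlinarith
  have key : 3 / 2 * (BF * NrC.Sα d q k z) / √(rq (gi d.s₁) z) ≤ cX n q := by
    have h1 : BF * NrC.Sα d q k z ≤ BF * (20 * cN n q) :=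
      mul_le_mul_of_nonneg_left (Ly.Sα_le hq d k z) hB
    calc 3 / 2 * (BF * NrC.Sα d q k z) / √(rq (gi d.s₁) z) ≤
          3 / 2 * (BF * (20 * cN n q)) / (q.c₀ / 2) := by
            refine div_le_div₀ (by positivity) (by linarith) (by positivity) hlo
      _ = cX n q := by
          unfold cX
          field_simp
          ring
  have ex : d.sx.D i (d.ch q k) z = dx i (d.ch q k) z := one_mul _
  have ey : d.sy.D i (d.ch q k) z = dy i (d.ch q k) z := one_mul _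
  have h1 := hS.Dx i
  have h2 := hS.Dy i
  rw [ex] at h1
  rw [ey] at h2
  exact ⟨h1.trans key, h2.trans key⟩

end Ly

end Vale.Agent.P088.R2.H165.NF
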